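import Crest.Agent.Lib_AMUC.Common
import Crest.Agent.Lib_AMUC.NoAUC

/-!
Package P4 (second half) of the AMUC row: consequences of the Shvidkoy-type property
`ShvProp` of Daugavet spaces: the upper bounds for the two asymptotic moduli of S0167 and the absence of
equivalent AUC norms.
-/

namespace Crest.Agent.AMUC

variable {X : Type} [NormedAddCommGroup X] [NormedSpace ℝ X]

/-- Shvidkoy-type property: from every unit vector one can move, asymptotically inside every closed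
finite-codimensional subspace, to a point of the unit ball at distance almost `2`. -/
def ShvProp (X : Type) [NormedAddCommGroup X] [NormedSpace ℝ X] : Prop :=
  ∀ x : X, ‖x‖ = 1 → ∀ F : Set X, Cof F → ∀ ε : ℝ, 0 < ε →
    ∃ z : X, ‖z‖ ≤ 1 ∧ (∃ y ∈ F, ‖z - x - y‖ < ε) ∧ 2 - ε ≤ ‖z - x‖

/-- (U1) both upper bounds with a common direction `y`. -/
theorem ShvProp.upper (h : ShvProp X) {t : ℝ} (ht : 0 < t) (x : X) (hx : ‖x‖ = 1) (F : Set X)
    (hF : Cof F) {η : ℝ} (hη : 0 < η) :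
    ∃ y ∈ F, ‖y‖ = 1 ∧ ‖x + t • y‖ - 1 ≤ max 0 (t - 2) + η ∧
      (‖x + t • y‖ + ‖x - t • y‖) / 2 - 1 ≤ max (t / 2) (t - 1) + η := by
  set ε := min (1 / 2) (η / (2 * t)) with hεdef
  have hε : 0 < ε := lt_min (by norm_num) (by positivity)
  have hε1 : ε ≤ 1 / 2 := min_le_left _ _
  have hε2 : t * ε ≤ η / 2 := by
    have := min_le_right (1 / 2) (η / (2 * t))
    rw [← hεdef, le_div_iff₀ (by positivity)] at this
    linarith
  obtain ⟨z, hz, ⟨y0, hy0F, hy0⟩, hzx⟩ := h x hx F hF ε hε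
  have hzx2 : ‖z - x‖ ≤ 2 := by
    calc ‖z - x‖ ≤ ‖z‖ + ‖x‖ := norm_sub_le _ _
      _ ≤ 2 := by rw [hx]; linarith
  -- the norm of `y0`
  have hn1 : 2 - 2 * ε ≤ ‖y0‖ := by
    have : ‖z - x‖ ≤ ‖z - x - y0‖ + ‖y0‖ := by
      calc ‖z - x‖ = ‖(z - x - y0) + y0‖ := by rw [sub_add_cancel]
        _ ≤ _ := norm_add_le _ _
    linarith
  have hn2 : ‖y0‖ ≤ 2 + ε := by
    have : ‖y0‖ ≤ ‖z - x - y0‖ + ‖z - x‖ := by
      calc ‖y0‖ = ‖(z - x) - (z - x - y0)‖ := by congr 1; abel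
        _ ≤ ‖z - x‖ + ‖z - x - y0‖ := norm_sub_le _ _
        _ = _ := add_comm _ _
    linarith
  have hpos : 0 < ‖y0‖ := by linarith
  set y := (‖y0‖)⁻¹ • y0 with hy
  have hy1 : ‖y‖ = 1 := by
    rw [hy, norm_smul, norm_inv, norm_norm, inv_mul_cancel₀ hpos.ne']
  have hyF : y ∈ F := hF.smul_mem _ hy0F
  -- distance from `y` to `(z - x)/2`
  have hd : ‖y - (1 / 2 : ℝ) • (z - x)‖ ≤ 3 / 2 * ε := by
    have e : y - (1 / 2 : ℝ) • (z - x) =
        ((‖y0‖)⁻¹ - 1 / 2) • y0 - (1 / 2 : ℝ) • (z - x - y0) := by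
      rw [hy, sub_smul, smul_sub (1 / 2 : ℝ) (z - x) y0]
      abel
    rw [e]
    refine (norm_sub_le _ _).trans ?_
    rw [norm_smul, norm_smul, Real.norm_eq_abs, Real.norm_eq_abs, abs_of_pos (by norm_num : (0:ℝ) < 1 / 2)]
    have h1 : |(‖y0‖)⁻¹ - 1 / 2| * ‖y0‖ = |1 - ‖y0‖ / 2| := by
      rw [← abs_of_pos hpos, ← abs_mul, abs_of_pos hpos]
      congr 1
      field_simp
    rw [h1]
    have h2 : |1 - ‖y0‖ / 2| ≤ ε := by
      rw [abs_le]; constructor <;> linarith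
    linarith
  -- the point `x + t (z - x)/2`
  have hmid : ‖x + t • ((1 / 2 : ℝ) • (z - x))‖ ≤ max 1 (t - 1) := by
    have e : x + t • ((1 / 2 : ℝ) • (z - x)) = (1 - t / 2) • x + (t / 2) • z := by
      rw [smul_smul, smul_sub, sub_smul, one_smul]
      have : t * (1 / 2) = t / 2 := by ring
      rw [this]
      abel
    rw [e]
    refine (norm_add_le _ _).trans ?_
    rw [norm_smul, norm_smul, hx, mul_one, Real.norm_eq_abs, Real.norm_eq_abs,
      abs_of_pos (by positivity : 0 < t / 2)]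
    have h3 : t / 2 * ‖z‖ ≤ t / 2 := by
      calc t / 2 * ‖z‖ ≤ t / 2 * 1 := mul_le_mul_of_nonneg_left hz (by positivity)
        _ = t / 2 := mul_one _
    rcases abs_cases (1 - t / 2) with ⟨h4, _⟩ | ⟨h4, _⟩
    · rw [h4]; exact le_max_of_le_left (by linarith)
    · rw [h4]; exact le_max_of_le_right (by linarith)
  have hplus : ‖x + t • y‖ ≤ max 1 (t - 1) + η := by
    have e : x + t • y = (x + t • ((1 / 2 : ℝ) • (z - x))) + t • (y - (1 / 2 : ℝ) • (z - x)) := by
      rw [smul_sub t y]; abel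
    rw [e]
    refine (norm_add_le _ _).trans ?_
    rw [norm_smul, Real.norm_eq_abs, abs_of_pos ht]
    have : t * ‖y - (1 / 2 : ℝ) • (z - x)‖ ≤ t * (3 / 2 * ε) := mul_le_mul_of_nonneg_left hd ht.le
    nlinarith
  have hminus : ‖x - t • y‖ ≤ 1 + t := by
    refine (norm_sub_le _ _).trans ?_
    rw [norm_smul, hx, hy1, Real.norm_eq_abs, abs_of_pos ht, mul_one]
  refine ⟨y, hyF, hy1, ?_, ?_⟩
  · rcases le_total 1 (t - 1) with h5 | h5
    · rw [max_eq_right h5] at hplus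
      have := le_max_right 0 (t - 2)
      linarith
    · rw [max_eq_left h5] at hplus
      have := le_max_left 0 (t - 2)
      linarith
  · rcases le_total 1 (t - 1) with h5 | h5
    · rw [max_eq_right h5] at hplus
      have := le_max_right (t / 2) (t - 1)
      linarith
    · rw [max_eq_left h5] at hplus
      have := le_max_left (t / 2) (t - 1)
      linarith

/-- every unit vector is the root of trees of arbitrary height. -/
theorem ShvProp.treeProp (h : ShvProp X) (j : ℕ) : ∀ z : X, ‖z‖ = 1 → TreeProp 1 1 j z := by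
  induction j with
  | zero => intro z hz; exact hz.le
  | succ j ih =>
    intro z hz
    refine ⟨hz.le, fun F hF ε hε => ?_⟩
    set ε' := min (ε / 2) (1 / 4) with hε'def
    have hε' : 0 < ε' := lt_min (by positivity) (by norm_num)
    have h1 : ε' ≤ ε / 2 := min_le_left _ _
    have h2 : ε' ≤ 1 / 4 := min_le_right _ _
    obtain ⟨z', hz', ⟨y, hyF, hy⟩, hzz⟩ := h z hz F hF ε' hε'
    have hn : 1 - ε' ≤ ‖z'‖ := by
      have : ‖z' - z‖ ≤ ‖z'‖ + ‖z‖ := norm_sub_le _ _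
      rw [hz] at this
      linarith
    have hpos : 0 < ‖z'‖ := by linarith
    set w := (‖z'‖)⁻¹ • z' with hw
    have hw1 : ‖w‖ = 1 := by
      rw [hw, norm_smul, norm_inv, norm_norm, inv_mul_cancel₀ hpos.ne']
    have hwz : ‖w - z'‖ ≤ ε' := by
      have e : w - z' = ((‖z'‖)⁻¹ - 1) • z' := by rw [hw, sub_smul, one_smul]
      rw [e, norm_smul, Real.norm_eq_abs]
      have h3 : |(‖z'‖)⁻¹ - 1| * ‖z'‖ = |1 - ‖z'‖| := by
        rw [← abs_of_pos hpos, ← abs_mul, abs_of_pos hpos]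
        congr 1
        field_simp
      rw [h3, abs_le]
      constructor <;> linarith
    refine ⟨w, y, hyF, ?_, ?_, ih w hw1⟩
    · have e : w - z - y = (w - z') + (z' - z - y) := by abel
      rw [e]
      calc ‖(w - z') + (z' - z - y)‖ ≤ ‖w - z'‖ + ‖z' - z - y‖ := norm_add_le _ _
        _ < ε := by linarith
    · have : ‖z' - z‖ ≤ ‖w - z‖ + ‖w - z'‖ := by
        calc ‖z' - z‖ = ‖(w - z) - (w - z')‖ := by congr 1; abel
          _ ≤ _ := norm_sub_le _ _
      linarith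

/-- (U2) no equivalent AUC norm. -/
theorem ShvProp.noAUC (h : ShvProp X) (hne : ∃ x : X, ‖x‖ = 1) (N : X → ℝ) (hN : EquivNorm N) :
    ¬ AUC N := by
  obtain ⟨x, hx⟩ := hne
  exact Crest.Agent.AMUC.noAUC (B := 1) (d := 1) (ρ := 1) one_pos one_pos
    (fun j => ⟨x, hx.ge, h.treeProp j x hx⟩) N hN

lemma exists_unit_of_not_finiteDimensional (h : ¬ FiniteDimensional ℝ X) : ∃ x : X, ‖x‖ = 1 := by
  have : Nontrivial X := by
    by_contra hcon
    rw [not_nontrivial_iff_subsingleton] at hcon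
    exact h inferInstance
  obtain ⟨x, hx⟩ := exists_ne (0 : X)
  refine ⟨(‖x‖)⁻¹ • x, ?_⟩
  rw [norm_smul, norm_inv, norm_norm, inv_mul_cancel₀ (norm_ne_zero_iff.mpr hx)]

end Crest.Agent.AMUC
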