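import Crest.Agent.Lib_AMUC.Common

/-!
Monotonicity of the symmetric quantities along a line and homogeneous forms of the moduli.
-/

namespace Crest.Agent.AMUC

variable {X : Type} [NormedAddCommGroup X] [NormedSpace ℝ X]

lemma line_convex (x y : X) {t l : ℝ} (hl : 0 < l) :
    x + t • y = ((l + t) / (2 * l)) • (x + l • y) + ((l - t) / (2 * l)) • (x - l • y) := by
  have h1 : (l + t) / (2 * l) + (l - t) / (2 * l) = 1 := by field_simp; ring
  have h2 : ((l + t) / (2 * l)) * l - ((l - t) / (2 * l)) * l = t := by field_simp; ring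
  calc x + t • y = ((l + t) / (2 * l) + (l - t) / (2 * l)) • x
        + (((l + t) / (2 * l)) * l - ((l - t) / (2 * l)) * l) • y := by rw [h1, h2, one_smul]
    _ = _ := by
      simp only [add_smul, sub_smul, smul_add, smul_sub, mul_smul]
      abel

lemma norm_line_le (x y : X) {t l : ℝ} (ht : |t| ≤ l) (hl : 0 < l) :
    ‖x + t • y‖ ≤ ((l + t) / (2 * l)) * ‖x + l • y‖ + ((l - t) / (2 * l)) * ‖x - l • y‖ := by
  have h := abs_le.1 ht
  rw [line_convex x y hl]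
  refine (norm_add_le _ _).trans ?_
  rw [norm_smul, norm_smul, Real.norm_of_nonneg (div_nonneg (by linarith) (by linarith)),
    Real.norm_of_nonneg (div_nonneg (by linarith) (by linarith))]

theorem max_mono (x y : X) {t l : ℝ} (ht : 0 ≤ t) (h : t ≤ l) :
    max ‖x + t • y‖ ‖x - t • y‖ ≤ max ‖x + l • y‖ ‖x - l • y‖ := by
  rcases ht.eq_or_lt with h0 | htpos
  · subst h0
    simp only [zero_smul, add_zero, sub_zero, max_self]
    have e : x = (1 / 2 : ℝ) • (x + l • y) + (1 / 2 : ℝ) • (x - l • y) := by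
      rw [← smul_add]
      have : x + l • y + (x - l • y) = (2 : ℝ) • x := by rw [two_smul]; abel
      rw [this, smul_smul]; norm_num
    have h1 : ‖x‖ ≤ 1 / 2 * ‖x + l • y‖ + 1 / 2 * ‖x - l • y‖ := by
      calc ‖x‖ = ‖(1 / 2 : ℝ) • (x + l • y) + (1 / 2 : ℝ) • (x - l • y)‖ := by rw [← e]
        _ ≤ _ := by
          refine (norm_add_le _ _).trans ?_
          rw [norm_smul, norm_smul]; norm_num
    have h2 := le_max_left ‖x + l • y‖ ‖x - l • y‖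
    have h3 := le_max_right ‖x + l • y‖ ‖x - l • y‖
    linarith
  have hl : 0 < l := lt_of_lt_of_le htpos h
  set M := max ‖x + l • y‖ ‖x - l • y‖ with hM
  have h2 : ‖x + l • y‖ ≤ M := le_max_left _ _
  have h3 : ‖x - l • y‖ ≤ M := le_max_right _ _
  have hsum : (l + t) / (2 * l) + (l - t) / (2 * l) = 1 := by field_simp; ring
  have hc1 : 0 ≤ (l + t) / (2 * l) := div_nonneg (by linarith) (by linarith)
  have hc2 : 0 ≤ (l - t) / (2 * l) := div_nonneg (by linarith) (by linarith)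
  apply max_le
  · have := norm_line_le x y (t := t) (by rw [abs_of_pos htpos]; exact h) hl
    calc ‖x + t • y‖ ≤ _ := this
      _ ≤ ((l + t) / (2 * l)) * M + ((l - t) / (2 * l)) * M := by gcongr
      _ = M := by rw [← add_mul, hsum, one_mul]
  · have := norm_line_le x y (t := -t) (by rw [abs_neg, abs_of_pos htpos]; exact h) hl
    rw [neg_smul, ← sub_eq_add_neg] at this
    have e1 : (l + -t) / (2 * l) = (l - t) / (2 * l) := by ring
    have e2 : (l - -t) / (2 * l) = (l + t) / (2 * l) := by ring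
    rw [e1, e2] at this
    calc ‖x - t • y‖ ≤ _ := this
      _ ≤ ((l - t) / (2 * l)) * M + ((l + t) / (2 * l)) * M := by gcongr
      _ = M := by rw [← add_mul, add_comm, hsum, one_mul]

theorem avg_mono (x y : X) {t l : ℝ} (ht : 0 ≤ t) (h : t ≤ l) :
    ‖x + t • y‖ + ‖x - t • y‖ ≤ ‖x + l • y‖ + ‖x - l • y‖ := by
  rcases (ht.trans h).eq_or_lt with h0 | hl
  · have : t = 0 := by linarith
    subst this; rw [← h0]
  have h1 := norm_line_le x y (t := t) (by rw [abs_of_nonneg ht]; exact h) hl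
  have h2 := norm_line_le x y (t := -t) (by rw [abs_neg, abs_of_nonneg ht]; exact h) hl
  rw [neg_smul, ← sub_eq_add_neg] at h2
  have e1 : (l + -t) / (2 * l) = (l - t) / (2 * l) := by ring
  have e2 : (l - -t) / (2 * l) = (l + t) / (2 * l) := by ring
  rw [e1, e2] at h2
  have hsum : (l + t) / (2 * l) + (l - t) / (2 * l) = 1 := by field_simp; ring
  have : ‖x + t • y‖ + ‖x - t • y‖ ≤ ((l + t) / (2 * l) + (l - t) / (2 * l)) * ‖x + l • y‖
      + ((l + t) / (2 * l) + (l - t) / (2 * l)) * ‖x - l • y‖ := by nlinarith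
  rw [hsum] at this
  linarith

/-- homogeneous form of the max-midpoint modulus bound `√(1+t²/4) - 1`. -/
theorem maxModulus_homog
    (h : ∀ t : ℝ, 0 < t → ∀ x : X, ‖x‖ = 1 → ∀ η : ℝ, 0 < η → ∃ F : Set X, Cof F ∧
      ∀ y ∈ F, ‖y‖ = 1 → Real.sqrt (1 + t ^ 2 / 4) - 1 - η ≤ max ‖x + t • y‖ ‖x - t • y‖ - 1)
    {x : X} (hx : x ≠ 0) {s η : ℝ} (hs : 0 < s) (hη : 0 < η) :
    ∃ F : Set X, Cof F ∧ ∀ y ∈ F, s ≤ ‖y‖ →
      Real.sqrt (‖x‖ ^ 2 + s ^ 2 / 4) - η ≤ max ‖x + y‖ ‖x - y‖ := by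
  have hn : 0 < ‖x‖ := norm_pos_iff.2 hx
  have hx1 : ‖(‖x‖⁻¹) • x‖ = 1 := by
    rw [norm_smul, norm_inv, norm_norm, inv_mul_cancel₀ hn.ne']
  obtain ⟨F, hF, hFy⟩ := h (s / ‖x‖) (div_pos hs hn) _ hx1 (η / ‖x‖) (div_pos hη hn)
  refine ⟨F, hF, fun y hy hsy => ?_⟩
  have hyn : 0 < ‖y‖ := lt_of_lt_of_le hs hsy
  have hy1 : ‖(‖y‖⁻¹) • y‖ = 1 := by
    rw [norm_smul, norm_inv, norm_norm, inv_mul_cancel₀ hyn.ne']
  have h1 := hFy _ (hF.smul_mem _ hy) hy1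
  have h2 := max_mono ((‖x‖⁻¹) • x) ((‖y‖⁻¹) • y) (t := s / ‖x‖) (l := ‖y‖ / ‖x‖)
    (div_pos hs hn).le (div_le_div_of_nonneg_right hsy hn.le)
  have e1 : (‖x‖⁻¹) • x + (‖y‖ / ‖x‖) • ((‖y‖⁻¹) • y) = (‖x‖⁻¹) • (x + y) := by
    rw [smul_smul, smul_add]
    congr 2
    field_simp
  have e2 : (‖x‖⁻¹) • x - (‖y‖ / ‖x‖) • ((‖y‖⁻¹) • y) = (‖x‖⁻¹) • (x - y) := by
    rw [smul_smul, smul_sub]
    congr 2
    field_simp
  rw [e1, e2, norm_smul, norm_smul, norm_inv, norm_norm] at h2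
  have e3 : max (‖x‖⁻¹ * ‖x + y‖) (‖x‖⁻¹ * ‖x - y‖) = ‖x‖⁻¹ * max ‖x + y‖ ‖x - y‖ :=
    (mul_max_of_nonneg _ _ (inv_pos.2 hn).le).symm
  rw [e3] at h2
  have e4 : Real.sqrt (‖x‖ ^ 2 + s ^ 2 / 4) = ‖x‖ * Real.sqrt (1 + (s / ‖x‖) ^ 2 / 4) := by
    have : ‖x‖ ^ 2 + s ^ 2 / 4 = ‖x‖ ^ 2 * (1 + (s / ‖x‖) ^ 2 / 4) := by field_simp
    rw [this, Real.sqrt_mul (sq_nonneg _), Real.sqrt_sq hn.le]
  rw [e4]
  have h3 : Real.sqrt (1 + (s / ‖x‖) ^ 2 / 4) - η / ‖x‖ ≤ ‖x‖⁻¹ * max ‖x + y‖ ‖x - y‖ := by linarith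
  have h4 := mul_le_mul_of_nonneg_left h3 hn.le
  rw [← mul_assoc, mul_inv_cancel₀ hn.ne', one_mul, mul_sub, mul_div_cancel₀ _ hn.ne'] at h4
  exact h4

/-- perturbation: `y` only close to `y0`. -/
lemma max_perturb (x y y0 : X) : max ‖x + y0‖ ‖x - y0‖ - ‖y - y0‖ ≤ max ‖x + y‖ ‖x - y‖ := by
  have h1 : ‖x + y0‖ ≤ ‖x + y‖ + ‖y - y0‖ := by
    have : x + y0 = (x + y) - (y - y0) := by abel
    rw [this]; exact norm_sub_le _ _
  have h2 : ‖x - y0‖ ≤ ‖x - y‖ + ‖y - y0‖ := by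
    have : x - y0 = (x - y) + (y - y0) := by abel
    rw [this]; exact norm_add_le _ _
  have h3 := le_max_left ‖x + y‖ ‖x - y‖
  have h4 := le_max_right ‖x + y‖ ‖x - y‖
  rw [sub_le_iff_le_add]
  apply max_le <;> linarith

end Crest.Agent.AMUC
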